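import Vale.Agent.P057DW.Out
import Vale.Agent.P057SY.Defs

/-!
All rounds from one round.
-/

set_option linter.all false

open Matrix Finset
open Vale.Agent.P267.H775 Vale.Agent.P057G Vale.Agent.P057PC Vale.Agent.P057TP Vale.Agent.P057RG
open Vale.Agent.P057SY Vale.Agent.P057DP

namespace Vale.Agent.P057DW

noncomputable section

variable {C W : Type} [Fintype W] [DecidableEq W] {T : Tow} {Z : Sys T W Unit} {cl : W → C}
  {m b b' τ : ℕ} {f : ℤ → ℝ} {θ Y Y' B κ σ : ℝ}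

theorem ks_mono (h : KS Z cl m f θ b τ Y B κ σ) (hb : b ≤ b') (hY : Y ≤ Y') :
    KS Z cl m f θ b' τ Y' B κ σ := by
  obtain ⟨E, J, i1, i2, i3, i4, X, Φ, Gk, K, u, n, γ, h1, h2, h3, h4, h5, h6, h7, h8, h9, h10, h11,
    h12, h13⟩ := h
  have e := Real.exp_le_exp.2 hY
  exact ⟨E, J, i1, i2, i3, i4, X, Φ, Gk, K, u, n, γ, h1, ⟨h2.tr, h2.card.trans hY, h2.sep,
    h2.cx.trans e⟩, h3, h4.trans hY, fun j => ⟨(h5 j).on, (h5 j).aff, (h5 j).lin,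
      fun F hF => (h5 j).deg F (hF.imp_left hb.trans)⟩, h6, fun j => (h7 j).trans e, h8, h9, h10,
    h11, fun z hz => (h12 z hz).trans e, h13⟩

theorem ks_zero (h : KS Z cl m f θ 0 τ Y B κ σ) : Z.SP cl m f θ B κ σ := by
  obtain ⟨E, J, i1, i2, i3, i4, X, Φ, Gk, K, u, n, γ, -, -, -, -, h5, h6, -, h8, -, h10, h11,
    -, h13⟩ := h
  have e : ∀ x, Φ x = 0 := fun x => funext fun j => by
    have := (h5 j).deg ∅ (Or.inl le_rfl) x
    rwa [image_empty, MS.alt_empty] at this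
  simp only [e] at h13
  have t0 := th_pos h6 0
  refine ⟨fun z => u z * (thK Gk K (0 - γ z) / th Gk 0), fun z z' k => by
    simp only [h8 z z' k, h10 z z' k], fun z => ⟨mul_nonneg (h11 z).1
      (div_nonneg (thK_pos h6 _ _).le t0.le), mul_le_one₀ (h11 z).2
      (div_nonneg (thK_pos h6 _ _).le t0.le)
      ((div_le_one t0).2 ((le_abs_self _).trans (abs_thK_le h6 _ _)))⟩, h13⟩

/-- the result of all rounds -/
def Cl (s : ℕ) (N : ℝ) (P : ℕ → ℝ) (T : Tow) (cl : W → C) (m : ℕ) (f : ℤ → ℝ) (θ : ℝ) (c : ℕ) :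
    Prop :=
  ∃ (T' : Tow) (Z' : Sys T' W Unit) (B' κ' σ' : ℝ), T'.Ok s N ∧ Z'.Ok ∧ Up m T' T ∧
    T.Grow N T' (fun e => P e ^ c) ∧ B' ≤ Real.exp (P m ^ c) ∧ Real.exp (-P m ^ c) ≤ κ' ∧
    Real.exp (-P 1 ^ c) ≤ σ' ∧ Z'.SP cl m f θ B' κ' σ'

/-- the rounds from degree at most `b₀ + i`, with absolute excess measured at level `1 - i` -/
def SY (s b₀ i τ c : ℕ) : Prop :=
  ∀ (N : ℝ) (P : ℕ → ℝ) (T : Tow) (C W : Type) [Fintype W] [DecidableEq W]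
    (cl : W → C) (m b : ℕ) (Z : Sys T W Unit) (f : ℤ → ℝ) (θ B κ σ : ℝ),
    Lad s N c P → T.Ok s N → T.Cx N P → Z.Ok → b ≤ b₀ → b + i < m → m ≤ s + 1 → Unit01 f → 0 ≤ θ →
    θ ≤ 4 → (Fintype.card W : ℝ) ≤ P m → ((cells cl).card : ℝ) ≤ P m → B ≤ Real.exp (P m) →
    Real.exp (-P m) ≤ κ → Real.exp (-P (1 - i)) ≤ σ → KS Z cl m f θ (b + i) τ (P m) B κ σ →
    Cl s N P T cl m f θ c

theorem cl_triv {s c : ℕ} {N : ℝ} {P : ℕ → ℝ} (hc : 1 ≤ c) (hL : Lad s N c P) (h1 : T.Ok s N)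
    (h2 : Z.Ok) (h3 : B ≤ Real.exp (P m)) (h4 : Real.exp (-P m) ≤ κ) (h5 : Real.exp (-P 1) ≤ σ)
    (h : Z.SP cl m f θ B κ σ) : Cl s N P T cl m f θ c := by
  have p1 : ∀ e, 1 ≤ P e := fun e => le_trans (by exact_mod_cast hc) (hL.big e)
  have p2 : ∀ e, P e ≤ P e ^ c := fun e => le_self_pow₀ (p1 e) (by omega)
  refine ⟨T, Z, B, κ, σ, h1, h2, up_refl _ _, fun e => ?_, h3.trans (Real.exp_le_exp.2 (p2 _)),
    (Real.exp_le_exp.2 (neg_le_neg (p2 _))).trans h4,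
    (Real.exp_le_exp.2 (neg_le_neg (p2 _))).trans h5, h⟩
  have := p2 (e + 1)
  have := p1 (e + 1)
  constructor <;> nlinarith [dm_nonneg T e]

theorem sy_step {s b₀ : ℕ} (hR : ROUND s) (h : ∀ τ, ∃ c, SY s b₀ 0 τ c) (τ : ℕ) :
    ∃ c, 2 ≤ c ∧ SY s b₀ 1 τ c := by
  obtain ⟨k, τ', hR⟩ := hR τ
  obtain ⟨l, h⟩ := h τ'
  refine ⟨k + (k + 3) * l + l + k + 3, by omega,
    fun N P T C W _ _ cl m b Z f θ B κ σ hL h1 h2 h3 h4 h5 h6 hf h7 h8 h9 h10 h11 h12 h13 h14 => ?_⟩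
  obtain ⟨c, hc⟩ : ∃ c, c = k + (k + 3) * l + l + k + 3 := ⟨_, rfl⟩
  rw [← hc] at hL ⊢
  have p3 : ∀ e, (3 : ℝ) ≤ P e := fun e =>
    le_trans (by exact_mod_cast (show 3 ≤ c by omega)) (hL.big e)
  have p1 : ∀ e, (1 : ℝ) ≤ P e := fun e => by linarith only [p3 e]
  have p0 : ∀ e, (0 : ℝ) ≤ P e := fun e => by linarith only [p3 e]
  have k1 : ∀ e, 1 ≤ P e ^ k := fun e => one_le_pow₀ (p1 e)
  have k2 : ∀ e, P e + (P e + 1) * P e ^ k ≤ P e ^ (k + 3) := fun e => by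
    have h6 := mul_le_mul_of_nonneg_right (show 2 * P e + 1 ≤ P e ^ 3 by
      nlinarith [p3 e, sq_nonneg (P e)]) (zero_le_one.trans (k1 e))
    rw [pow_add]
    nlinarith [k1 e, p0 e]
  have k4 : ∀ e, P e ^ k ≤ P e ^ (k + 3) := fun e => pow_le_pow_right₀ (p1 e) (by omega)
  have k5 : ∀ e, P e ≤ P e ^ (k + 3) := fun e => le_self_pow₀ (p1 e) (by omega)
  obtain ⟨T₁, Z₁, B₁, κ₁, σ₁, a1, a2, a3, a4, a5, a6, a7, a8⟩ := hR N P T C W cl m b Z f θ B κ σ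
    (lad_mono hL (by exact_mod_cast (show k ≤ c by omega))) h1 h2 h3 h5 h6 hf h7 h8 h9 h10 h11 h12
    h13 h14
  obtain ⟨T₂, Z₂, B₂, κ₂, σ₂, b1, b2, b3, b4, b5, b6, b7, b8⟩ := h N (fun e => P e ^ (k + 3)) T₁ C W
    cl m b Z₁ f θ B₁ κ₁ σ₁
    (lad_mono (lad_pow hL (by exact_mod_cast (show 1 ≤ c by omega)) (a := fun _ => k + 3)
      (fun _ => le_rfl) (fun _ => by omega) (by exact_mod_cast (show k + 3 ≤ c by omega)))
      (by exact_mod_cast (show l ≤ c by omega))) a1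
    (cx_up h2 a3 a4 (fun e => zero_le_one.trans (k1 e)) k5 fun e _ => le_trans (by
        have := pow_le_pow_left₀ (p0 _) (hL.anti e) k
        nlinarith only [this, p0 e]) (k2 e)) a2 h4 (by omega) h6 hf h7 h8 (h9.trans (k5 _))
    (h10.trans (k5 _)) (a5.trans (Real.exp_le_exp.2 (k4 _)))
    ((Real.exp_le_exp.2 (neg_le_neg (k4 _))).trans a6)
    ((Real.exp_le_exp.2 (neg_le_neg (k4 _))).trans a7) (ks_mono a8 le_rfl (k4 _))
  have h15 : ∀ e, 1 ≤ (P e ^ (k + 3)) ^ l := fun e => one_le_pow₀ (one_le_pow₀ (p1 e))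
  have h16 : ∀ e, P e ^ k + (1 + P e ^ k) * (P e ^ (k + 3)) ^ l ≤ P e ^ c := fun e => by
    have h7 : P e * (P e ^ k * (P e ^ (k + 3)) ^ l) ≤ P e ^ c := by
      rw [← pow_mul, ← pow_add, ← pow_succ']
      exact pow_le_pow_right₀ (p1 e) (by omega)
    have h8 := mul_le_mul_of_nonneg_right (p3 e) (mul_nonneg (zero_le_one.trans (k1 e))
      (zero_le_one.trans (h15 e)))
    nlinarith only [h15 e, h7, h8, k1 e]
  have h17 : ∀ e, (P e ^ (k + 3)) ^ l ≤ P e ^ c := fun e => by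
    nlinarith only [h15 e, h16 e, k1 e]
  exact ⟨T₂, Z₂, B₂, κ₂, σ₂, b1, b2, up_trans b3 a3, fun e => grow_num (dm_nonneg T e) (a4 e).1
    (a4 e).2 (b4 e).1 (b4 e).2 (zero_le_one.trans (k1 _)) (zero_le_one.trans (h15 _)) (h16 _),
    b5.trans (Real.exp_le_exp.2 (h17 _)), (Real.exp_le_exp.2 (neg_le_neg (h17 _))).trans b6,
    (Real.exp_le_exp.2 (neg_le_neg (h17 _))).trans b7, b8⟩

theorem sy_all {s : ℕ} (hR : ROUND s) (b₀ : ℕ) : ∀ τ, ∃ c, SY s b₀ 0 τ c := by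
  induction b₀ with
  | zero =>
    refine fun τ => ⟨1, fun N P T C W _ _ cl m b Z f θ B κ σ hL h1 _ h3 h4 _ _ _ _ _ _ _ h11 h12 h13
      h14 => ?_⟩
    obtain rfl : b = 0 := by omega
    exact cl_triv le_rfl hL h1 h3 h11 h12 h13 (ks_zero h14)
  | succ b₀ ih =>
    intro τ
    obtain ⟨c, hc, h⟩ := sy_step hR ih τ
    refine ⟨c, fun N P T C W _ _ cl m b Z f θ B κ σ hL h1 h2 h3 h4 h5 h6 hf h7 h8 h9 h10 h11 h12 h13
      h14 => ?_⟩
    cases b with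
    | zero => exact cl_triv (by omega) hL h1 h3 h11 h12 h13 (ks_zero h14)
    | succ b =>
      exact h N P T C W cl m b Z f θ B κ σ hL h1 h2 h3 (by omega) h5 h6 hf h7 h8 h9 h10 h11
        h12 ((Real.exp_le_exp.2 (neg_le_neg (hL.anti 0))).trans h13) h14

theorem syi {s : ℕ} (hR : ROUND s) : SYI s := by
  intro τ
  obtain ⟨c, hc, h⟩ := sy_step hR (sy_all hR s) τ
  refine ⟨c, fun N P T C W _ _ cl m b Z f θ B κ σ hL h1 h2 h3 h5 h6 hf h7 h8 h9 h10 h11 h12 h13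
    h14 => ?_⟩
  by_cases hm : 2 ≤ m
  · exact h N P T C W cl m (m - 2) Z f θ B κ σ hL h1 h2 h3 (by omega) (by omega) h6 hf h7 h8 h9 h10
      h11 h12 h13 (ks_mono h14 (by omega) le_rfl)
  obtain rfl : m = 1 := by omega
  obtain rfl : b = 0 := by omega
  obtain ⟨u, u1, u2, u3, u4⟩ := ks_zero h14
  haveI : IsEmpty (Lb T cl Unit 1) := ⟨fun l => by have := h1.pos l.1.1; have := l.2.1; omega⟩
  have e : ∀ z, Z.w cl 1 z = 1 := fun z => by simp [Sys.w, ng, gs, qq, vol]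
  have p2 : ∀ e, (2 : ℝ) ≤ P e := fun e => le_trans (by exact_mod_cast hc) (hL.big e)
  have p3 : ∀ e, P e + 1 ≤ P e ^ c := fun e =>
    le_trans (by nlinarith [p2 e]) (pow_le_pow_right₀ (by linarith [p2 e]) hc)
  have k1 : Real.exp (-P 1 ^ c) ≤ 1 / 2 * κ := by
    have h1 := Real.exp_le_exp.2 (show -P 1 ^ c + 1 ≤ -P 1 by linarith [p3 1])
    rw [Real.exp_add] at h1
    nlinarith [Real.add_one_le_exp (1 : ℝ), Real.exp_pos (-P 1 ^ c)]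
  refine ⟨T, Z, B, _, _, h1, h3, up_refl _ _, fun e => ?_,
    h11.trans (Real.exp_le_exp.2 (by linarith [p3 1])), k1, k1, u, u1, u2, u3, ?_⟩
  · have := p2 (e + 1)
    have := p3 (e + 1)
    constructor <;> nlinarith [dm_nonneg T e]
  · rw [tsum_fintype, Fintype.sum_unique, e] at u4 ⊢
    linarith [Real.exp_pos (-P 0)]

end

end Vale.Agent.P057DW
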