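import Vale.Agent.P057DW.Round

/-!
The loop of rounds and the descent with backtracking.
-/

set_option linter.all false

open Matrix Finset
open Vale.Agent.P267.H775 Vale.Agent.P057G Vale.Agent.P057PC Vale.Agent.P057TP Vale.Agent.P057RG

namespace Vale.Agent.P057DW

noncomputable section

/-- the loop with the constant `c` -/
def LP (s : ℕ) (ε : ℝ) (n c : ℕ) : Prop :=
  ∀ (N : ℝ) (P : ℕ → ℝ) (T : Tow) (W : Type) [Fintype W] [DecidableEq W] (cl : W → Fin n)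
    (Z : Sys T W Unit) (f : ℤ → ℝ) (θ B κ σ : ℝ), Lad s N c P → Hy s N P T cl Z f θ B κ σ →
    Out s N T f ((1 - ε) ^ (2 * n) * ((1 - ε) * θ)) (P (s + 1)) (n + 1) fun e => P e ^ c

theorem num4 {x a b i : ℝ} (hx : 3 ≤ x) (ha : 1 ≤ a) (hi : i ≤ x) (hb : a ^ 4 ≤ b) :
    i * a ≤ 2 * x ^ 2 * a ^ 2 ∧ i * ((1 + x * a) * a) ≤ 2 * x ^ 2 * a ^ 2 ∧
      a ≤ 2 * x ^ 2 * a ^ 2 ∧ 2 * x ^ 2 * a ^ 2 + (1 + 2 * x ^ 2 * a ^ 2) * a ≤ x ^ 9 * b ∧
      x + x * a ≤ x ^ 9 * b := by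
  have h1 : 1 ≤ x * a := by nlinarith
  have h2 : i * a ≤ x * a := mul_le_mul_of_nonneg_right hi (by linarith)
  have h3 : i * a * (1 + x * a) ≤ x * a * (1 + x * a) := mul_le_mul_of_nonneg_right h2 (by linarith)
  have h4 : a ≤ x * a := by nlinarith
  have h5 : x * a ≤ (x * a) ^ 2 := by nlinarith
  have h6 : x ^ 4 ≤ x ^ 9 := pow_le_pow_right₀ (by linarith) (by omega)
  have h7 : a ^ 3 ≤ b := (pow_le_pow_right₀ ha (by omega)).trans hb
  have h8 := mul_le_mul h6 h7 (by positivity) (by positivity)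
  have h9 : (x * a) ^ 2 ≤ (x * a) ^ 2 * a := le_mul_of_one_le_right (by positivity) ha
  have h10 : 9 * ((x * a) ^ 2 * a) ≤ x ^ 2 * ((x * a) ^ 2 * a) :=
    mul_le_mul_of_nonneg_right (by nlinarith) (by positivity)
  have h11 : x ≤ x * a := by nlinarith
  refine ⟨?_, ?_, ?_, ?_, ?_⟩ <;> nlinarith

theorem num5 {x x' a b : ℝ} (hx : 3 ≤ x') (hx' : x' ≤ x) (ha : 1 ≤ a) (hb : a ^ 4 ≤ b) :
    x + (x + 1) * (2 * x' ^ 2 * a ^ 2) ≤ x ^ 9 * b := by
  have h0 : 3 ≤ x := hx.trans hx'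
  have h1 : x' ^ 2 ≤ x ^ 2 := pow_le_pow_left₀ (by linarith) hx' 2
  have h2 : 1 ≤ a ^ 2 := one_le_pow₀ ha
  have h3 : a ^ 2 ≤ b := (pow_le_pow_right₀ ha (by omega)).trans hb
  have h4 : x ^ 5 ≤ x ^ 9 := pow_le_pow_right₀ (by linarith) (by omega)
  have h5 := mul_le_mul h4 h3 (by positivity) (by positivity)
  have h6 : (x + 1) * (2 * x' ^ 2 * a ^ 2) ≤ (2 * x) * (2 * x ^ 2 * a ^ 2) := by
    gcongr; linarith
  have h7 : x * 1 ≤ x ^ 3 * a ^ 2 :=
    mul_le_mul (le_self_pow₀ (by linarith) (by omega)) h2 zero_le_one (by positivity)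
  have h8 : 9 * (x ^ 3 * a ^ 2) ≤ x ^ 2 * (x ^ 3 * a ^ 2) :=
    mul_le_mul_of_nonneg_right (by nlinarith) (by positivity)
  nlinarith

theorem num6 {d d₁ d₂ y y₁ y₂ a x i : ℝ} (hd : 0 ≤ d) (ha : 0 ≤ a) (hi : i ≤ x) (hx : 0 ≤ x)
    (h1 : d₁ ≤ d + i * a) (h2 : y₁ ≤ y + (d + 1) * (i * ((1 + x * a) * a))) (h3 : d₂ ≤ d₁ + a)
    (h4 : y₂ ≤ y₁ + (d₁ + 1) * a) :
    d₂ ≤ d + (i + 1) * a ∧ y₂ ≤ y + (d + 1) * ((i + 1) * ((1 + x * a) * a)) := by
  have h5 := mul_le_mul_of_nonneg_right hi ha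
  have h6 : (d₁ + 1) * a ≤ (d + x * a + 1) * a := mul_le_mul_of_nonneg_right (by linarith) ha
  constructor <;> nlinarith [mul_nonneg hd (mul_nonneg (mul_nonneg hx ha) ha)]

theorem num7 {κ κ₁ κ₂ i M : ℝ} (hκ : 0 ≤ κ) (hM : 1 ≤ M) (hi : 0 ≤ i) (h1 : (1 - i / M) * κ ≤ κ₁)
    (h2 : (1 - 1 / M) * κ₁ ≤ κ₂) : (1 - (i + 1) / M) * κ ≤ κ₂ := by
  have h3 : 0 ≤ 1 - 1 / M := sub_nonneg.2 ((div_le_one (by linarith)).2 hM)
  have h4 := mul_le_mul_of_nonneg_left h1 h3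
  have h5 : 0 ≤ 1 / M * (i / M) * κ := by positivity
  rw [add_div]
  nlinarith

theorem exists_lp {s n : ℕ} {ε : ℝ} (hn : n + 1 ≤ s) (hR : ∃ c, RD s ε n c) :
    ∃ c, LP s ε n c := by
  obtain ⟨k, hR⟩ := hR
  obtain ⟨c, -, hc⟩ := exists_room s (k + 1)
  refine ⟨c, fun N P T W _ _ cl Z f θ B κ σ hL h => ?_⟩
  obtain ⟨P₁, P₂, r⟩ := hc N P hL
  clear hc
  have p3 := r.big
  have q1 : ∀ e, 2 * P e ≤ P₁ e := fun e => le_trans (by nlinarith [p3 e, sq_nonneg (P e)]) (r.cub e)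
  have q0 : ∀ e, P e ≤ P₁ e := fun e => by linarith only [q1 e, p3 e]
  have q2 : ∀ e, 1 ≤ P₁ e := fun e => by linarith only [q0 e, p3 e]
  obtain ⟨a, ha⟩ : ∃ a : ℕ → ℝ, a = fun e => P₁ e ^ k := ⟨_, rfl⟩
  have a1 : ∀ e, 1 ≤ a e := fun e => ha ▸ one_le_pow₀ (q2 e)
  have a0 : ∀ e, 0 ≤ a e := fun e => zero_le_one.trans (a1 e)
  have a2 : ∀ e, a e ^ 4 ≤ (P₂ e ^ (k + 1)) ^ 2 := fun e => by
    rw [ha, r.two, ← pow_mul, ← pow_mul, ← pow_mul]
    exact pow_le_pow_right₀ (q2 e) (by nlinarith)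
  have κ0 : 0 < κ := (Real.exp_pos _).trans_le h.ka
  have σ0 : 0 < σ := (Real.exp_pos _).trans_le h.si
  have key : ∀ (t i : ℕ) (T' : Tow) (Z' : Sys T' W Unit) (κ' σ' : ℝ), T'.dm (n + 1) < t →
      T'.Ok s N → Z'.Ok → Up (n + 2) T' T → (1 - i / P₁ 0) * κ ≤ κ' →
      σ * Real.exp (-(i * a 1)) ≤ σ' → Z'.SP cl (n + 2) f θ B κ' σ' →
      (∀ e, e < n + 1 → T'.dm e ≤ T.dm e + i * a (e + 1) ∧ T'.yy N e ≤ T.yy N e +
        (T.dm e + 1) * (i * ((1 + P (e + 1) * a (e + 1)) * a (e + 1)))) →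
      T'.dm (n + 1) + i ≤ T.dm (n + 1) →
      T'.yy N (n + 1) ≤ T.yy N (n + 1) + (T.dm (n + 1) - T'.dm (n + 1)) * a (n + 2) →
      Out s N T f ((1 - ε) ^ (2 * n) * ((1 - ε) * θ)) (P (s + 1)) (n + 1) fun e => P e ^ c := by
    intro t
    induction t with
    | zero => exact fun i T' _ _ _ h0 => absurd (dm_nonneg T' _) (by simpa using h0)
    | succ t ih =>
      intro i T' Z' κ' σ' h0 h1 h2 h3 h4 h5 h6 h7 h8 h9
      have i0 : (0 : ℝ) ≤ i := Nat.cast_nonneg i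
      have i1 : ∀ e, e ≤ n + 1 → (i : ℝ) ≤ P e := fun e he => by
        linarith only [h8, dm_nonneg T' (n + 1), (h.cx (n + 1)).1, lad_le hL he]
      have w0 : ∀ e, 0 ≤ 2 * P e ^ 2 * a e ^ 2 := fun e => by positivity
      have g : T.Grow N T' fun e => 2 * P e ^ 2 * a e ^ 2 := fun e => by
        have d0 := dm_nonneg T e
        rcases lt_trichotomy e (n + 1) with he | rfl | he
        · have := num4 (p3 _) (a1 (e + 1)) (i1 (e + 1) he) (a2 _)
          exact ⟨by linarith only [(h7 e he).1, this.1], (h7 e he).2.trans (by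
            linarith only [mul_le_mul_of_nonneg_left this.2.1 (by linarith : 0 ≤ T.dm e + 1)])⟩
        · have := (num4 (p3 (n + 2)) (a1 (n + 2)) le_rfl (a2 _)).2.2.1
          exact ⟨by linarith only [h8, i0, w0 (n + 1 + 1)], h9.trans (by
            linarith only [mul_le_mul (show T.dm (n + 1) - T'.dm (n + 1) ≤ T.dm (n + 1) + 1 by
              linarith only [dm_nonneg T' (n + 1)]) this (a0 _) (by linarith only [d0])])⟩
        · rw [up_dm h3 he, up_yy h3 N he]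
          exact ⟨le_add_of_nonneg_right (w0 _), le_add_of_nonneg_right
            (mul_nonneg (by linarith only [d0]) (w0 _))⟩
      have i2 : (i : ℝ) / P₁ 0 ≤ 1 / 2 := by
        rw [div_le_iff₀ (by linarith only [q2 0])]
        linarith only [i1 0 (by omega), q1 0]
      have i3 : P 0 + i * a 1 ≤ P₁ 0 := by
        have h10 := (num4 (p3 0) (a1 1) le_rfl (a2 _)).2.2.2.2.trans (r.stp 0 (by omega))
        linarith only [h10, mul_le_mul_of_nonneg_right (i1 0 (by omega)) (a0 1)]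
      rcases hR N P₁ T' W cl Z' f θ B κ' σ' (lad_mono r.l1 (by push_cast; linarith))
        ⟨h1, cx_up h.cx h3 g w0 q0 fun e he => (num5 (p3 _) (hL.anti e) (a1 _) (a2 _)).trans
          (r.stp e (by omega)), h2, h.f01, (Real.exp_le_exp.2 (neg_le_neg (q0 _))).trans h.lo,
          h.hi, h.ne, h.card.trans (q0 _), h.bd.trans (Real.exp_le_exp.2 (q0 _)),
          (exp_half (by linarith only [q1 (n + 2), p3 (n + 2)]) h.ka
            (by linarith only [i2])).trans h4, (exp_lose i3 h.si).trans h5, h6⟩ with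
        o | ⟨T₂, Z₂, κ₂, σ₂, b1, b2, b3, b4, b5, b6, b7, b8, b9⟩
      · rw [← ha] at o
        exact out_up h.ok h1 h3 g o w0 a0 (fun e => (num4 (p3 e) (a1 e) le_rfl (a2 e)).2.2.2.1.trans
          (r.fin e)) (q0 _)
      · rw [← ha] at b7
        rw [← show a 1 = P₁ 1 ^ k from congrFun ha 1] at b5
        rw [← show a (n + 2) = P₁ (n + 2) ^ k from congrFun ha _] at b9
        refine ih (i + 1) T₂ Z₂ κ₂ σ₂ (by push_cast at h0; linarith only [h0, b8]) b1 b2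
          (up_trans b3 h3) ?_ ?_ b6 (fun e he => ?_) ?_ (by linarith only [h9, b9]) <;> push_cast
        · exact num7 κ0.le (q2 0) i0 h4 b4
        · refine le_trans (le_of_eq ?_) ((mul_le_mul_of_nonneg_right h5 (Real.exp_pos _).le).trans b5)
          rw [mul_assoc, ← Real.exp_add]; ring_nf
        · exact num6 (dm_nonneg T e) (a0 _) (i1 (e + 1) he) (by linarith only [p3 (e + 1)])
            (h7 e he).1 (h7 e he).2 (b7 e).1 (b7 e).2
        · linarith only [h8, b8]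
  obtain ⟨t, ht⟩ := exists_nat_gt (T.dm (n + 1))
  exact key t 0 T Z κ σ ht h.ok h.zok (up_refl _ _) (by simp) (by simp) h.sp
    (fun e _ => by simp) (by simp) (by simp)

theorem dn_succ {s n : ℕ} {ε : ℝ} (hS : STAGE s) (ε0 : 0 < ε) (ε1 : ε ≤ 1 / 10) (hn : n + 1 ≤ s)
    (hP : ∃ c, LP s ε n c) : ∃ c, DN s ε (n + 1) c := by
  obtain ⟨k, hS⟩ := hS ε ε0 ε1
  obtain ⟨l, hP⟩ := hP
  refine ⟨k + (k + 3) * l + l + s + k + 3, fun N P T p f θ hL h1 h2 hf h3 h4 hp h5 hG hF => ?_⟩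
  obtain ⟨c, hc⟩ : ∃ c, c = k + (k + 3) * l + l + s + k + 3 := ⟨_, rfl⟩
  rw [← hc] at hL hF ⊢
  have cc : ∀ a : ℕ, a ≤ c → ∀ e, (a : ℝ) ≤ P e := fun a ha e =>
    le_trans (by exact_mod_cast ha) (hL.big e)
  have p3 : ∀ e, (3 : ℝ) ≤ P e := fun e => by exact_mod_cast cc 3 (by omega) e
  have p1 : ∀ e, (1 : ℝ) ≤ P e := fun e => by linarith only [p3 e]
  have p0 : ∀ e, (0 : ℝ) ≤ P e := fun e => by linarith only [p3 e]
  have k1 : ∀ e, 1 ≤ P e ^ k := fun e => one_le_pow₀ (p1 e)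
  have k2 : ∀ e, P e + (P e + 1) * P e ^ k ≤ P e ^ (k + 3) := fun e => by
    have h6 := mul_le_mul_of_nonneg_right (show 2 * P e + 1 ≤ P e ^ 3 by
      nlinarith [p3 e, sq_nonneg (P e)]) (zero_le_one.trans (k1 e))
    rw [pow_add]
    nlinarith [k1 e, p0 e]
  have k3 : ∀ e, P e * P e ^ k + 1 ≤ P e ^ (k + 3) := fun e => by linarith only [k2 e, k1 e, p0 e]
  have k4 : ∀ e, P e ^ k ≤ P e ^ (k + 3) := fun e => pow_le_pow_right₀ (p1 e) (by omega)
  have k5 : ∀ e, P e + 1 ≤ P e ^ (k + 3) := fun e => by nlinarith only [k3 e, k1 e, p0 e]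
  have k6 : P (n + 2) ^ k ≤ P (n + 2) ^ c := pow_le_pow_right₀ (p1 _) (by omega)
  obtain ⟨T₁, q, Z, B, κ, σ, a1, a2, a3, a4, a5, a6, a7, a8, a9, a10⟩ := hS N P T n p f θ
    (lad_mono hL (by exact_mod_cast (show k ≤ c by omega))) h1 h2 hn hf h3 h4 hp h5 hG
    (lfd_mono h1 hF le_rfl k6 k6)
  have θ0 : 0 < θ := (Real.exp_pos _).trans_le h3
  have o := hP N (fun e => P e ^ (k + 3)) T₁ (Fin n × Fin q) Prod.fst Z f _ B κ σ
    (lad_mono (lad_pow hL (by exact_mod_cast (show 1 ≤ c by omega)) (a := fun _ => k + 3)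
      (fun _ => le_rfl) (fun _ => by omega) (by exact_mod_cast (show k + 3 ≤ c by omega)))
      (by exact_mod_cast (show l ≤ c by omega)))
    ⟨a1, cx_up h2 a3 a4 (fun e => zero_le_one.trans (k1 e)) (fun e => by linarith only [k5 e])
      fun e _ => le_trans (by
        have := pow_le_pow_left₀ (p0 _) (hL.anti e) k
        nlinarith only [this, p0 e]) (k2 e), a2, hf,
      exp_half (k5 _) h3 (by linarith only [ε1]), by nlinarith only [h4, θ0, ε0], cells_fst a5, by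
        rw [Fintype.card_prod, Fintype.card_fin, Fintype.card_fin, Fintype.card_unit]
        push_cast
        linarith only [k3 (n + 2), mul_le_mul (cc n (by omega) (n + 2)) a6 (Nat.cast_nonneg q) (p0 _)],
      a7.trans (Real.exp_le_exp.2 (k4 _)), (Real.exp_le_exp.2 (neg_le_neg (k4 _))).trans a8,
      (Real.exp_le_exp.2 (neg_le_neg ((pow_le_pow_left₀ (p0 _) (hL.anti 0) k).trans
        (k4 0)))).trans a9, a10⟩
  rw [show (1 - ε) ^ (2 * (n + 1)) * θ = (1 - ε) ^ (2 * n) * ((1 - ε) * ((1 - ε) * θ)) by ring]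
  refine out_up h1 a1 a3 a4 o (fun e => zero_le_one.trans (k1 e))
    (fun e => pow_nonneg (pow_nonneg (p0 e) _) _) (fun e => ?_) (by linarith only [k5 (s + 1)])
  have h6 : 1 ≤ (P e ^ (k + 3)) ^ l := one_le_pow₀ (one_le_pow₀ (p1 e))
  have h7 : P e * (P e ^ k * (P e ^ (k + 3)) ^ l) ≤ P e ^ c := by
    rw [← pow_mul, ← pow_add, ← pow_succ']
    exact pow_le_pow_right₀ (p1 e) (by omega)
  have h8 := mul_le_mul_of_nonneg_right (p3 e) (mul_nonneg (zero_le_one.trans (k1 e))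
    (zero_le_one.trans h6))
  nlinarith only [h6, h7, h8, k1 e]

theorem down {s : ℕ} (hS : STAGE s) (hR : REG s) (hC : CD s) (hE : EVENT s) (hT : TEST s) :
    DOWN s := by
  intro ε ε0 ε1 n hn
  induction n with
  | zero => exact dn_zero hT ε
  | succ n ih => exact dn_succ hS ε0 ε1 hn (exists_lp hn (exists_rd hR hC hE ε0 ε1 hn (ih (by omega))))

end

end Vale.Agent.P057DW
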