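import Vale.Agent.P057DW.Scl

/-!
The outcome of the descent, its pull back, and the descent without pure classes.
-/

set_option linter.all false

open Matrix Finset
open Vale.Agent.P267.H775 Vale.Agent.P057G Vale.Agent.P057PC Vale.Agent.P057TP Vale.Agent.P057RG

namespace Vale.Agent.P057DW

noncomputable section

/-- a regular point cell, or a certificate above level `n` -/
def Out (s : ℕ) (N : ℝ) (T : Tow) (f : ℤ → ℝ) (θ X : ℝ) (n : ℕ) (Q : ℕ → ℝ) : Prop :=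
  (∃ T' : Tow, T'.Ok s N ∧ T.Grow N T' Q ∧ GS T' 0 f 1 θ ∧ T'.LFd s X X) ∨
    ∃ j, n + 1 ≤ j ∧ j ≤ s ∧ Cert T N j (Real.exp (Q (j + 1))) (fun e => T.dm e + Q (e + 1))
      fun e => T.yy N e + (T.dm e + 1) * Q (e + 1)

/-- the descent from `n` pure classes with the constant `c` -/
def DN (s : ℕ) (ε : ℝ) (n c : ℕ) : Prop :=
  ∀ (N : ℝ) (P : ℕ → ℝ) (T : Tow) (p : ℕ) (f : ℤ → ℝ) (θ : ℝ), Lad s N c P → T.Ok s N →
    T.Cx N P → Unit01 f → Real.exp (-P (s + 1)) ≤ θ → θ ≤ 4 → 1 ≤ p → (p : ℝ) ≤ P (n + 1) →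
    GS T n f p θ → T.LFd n (P (n + 1) ^ c) (P (n + 1) ^ c) →
    Out s N T f ((1 - ε) ^ (2 * n) * θ) (P (s + 1)) n fun e => P e ^ c

variable {T T' : Tow} {s n : ℕ} {N θ X X' : ℝ} {f : ℤ → ℝ} {Q₁ Q₂ Q₃ : ℕ → ℝ}

theorem grow_num {d d' d'' y y' y'' q₁ q₂ q₃ : ℝ} (hd : 0 ≤ d) (h1 : d' ≤ d + q₁)
    (h2 : y' ≤ y + (d + 1) * q₁) (h3 : d'' ≤ d' + q₂) (h4 : y'' ≤ y' + (d' + 1) * q₂)
    (h5 : 0 ≤ q₁) (h6 : 0 ≤ q₂) (h7 : q₁ + (1 + q₁) * q₂ ≤ q₃) :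
    d'' ≤ d + q₃ ∧ y'' ≤ y + (d + 1) * q₃ := by
  have h8 := mul_nonneg h5 h6
  have h9 := mul_le_mul_of_nonneg_right h1 h6
  have h10 := mul_le_mul_of_nonneg_left h7 hd
  constructor <;> nlinarith [mul_nonneg hd h8]

theorem out_of (hT : T.Ok s N) (hG : T.Grow N T' Q₁) (h : Out s N T' f θ X n Q₂)
    (h1 : ∀ e, 0 ≤ Q₁ e) (h2 : ∀ e, 0 ≤ Q₂ e) (h3 : ∀ e, Q₁ e + (1 + Q₁ e) * Q₂ e ≤ Q₃ e)
    (hX : X' ≤ X) (hc : ∀ j D Y, n + 1 ≤ j → Cert T' N j (Real.exp (Q₂ (j + 1))) D Y →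
      Cert T N j (Real.exp (Q₃ (j + 1))) D Y) : Out s N T f θ X' n Q₃ := by
  rcases h with ⟨T₀, g1, g2, g3, g4⟩ | ⟨j, g1, g2, g3⟩
  · exact Or.inl ⟨T₀, g1, fun e => grow_num (dm_nonneg T e) (hG e).1 (hG e).2 (g2 e).1 (g2 e).2
      (h1 _) (h2 _) (h3 _), g3, lfd_mono g1 g4 le_rfl hX hX⟩
  · exact Or.inr ⟨j, g1, g2, cert_mono hT.pd (hc j _ _ g1 g3) le_rfl fun e _ =>
      grow_num (dm_nonneg T e) (hG e).1 (hG e).2 le_rfl le_rfl (h1 _) (h2 _) (h3 _)⟩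

theorem out_up (hT : T.Ok s N) (hT' : T'.Ok s N) (hU : Up (n + 1) T' T) (hG : T.Grow N T' Q₁)
    (h : Out s N T' f θ X n Q₂) (h1 : ∀ e, 0 ≤ Q₁ e) (h2 : ∀ e, 0 ≤ Q₂ e)
    (h3 : ∀ e, Q₁ e + (1 + Q₁ e) * Q₂ e ≤ Q₃ e) (hX : X' ≤ X) : Out s N T f θ X' n Q₃ :=
  out_of hT hG h h1 h2 h3 hX fun j D Y hj hc => cert_mono hT.pd
    (cert_up hT (up_mono hT hT' hU hj) (Real.exp_pos _).le hc) (Real.exp_le_exp.2 (by
      nlinarith [h3 (j + 1), h1 (j + 1), mul_nonneg (h1 (j + 1)) (h2 (j + 1))]))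
    fun _ _ => ⟨le_rfl, le_rfl⟩

theorem out_scl (hT : T.Ok s N) {i : ℕ} (h : Out s N (T.scl i) f θ X n Q₂) (h2 : ∀ e, 0 ≤ Q₂ e)
    (h3 : ∀ e, 1 + 2 * Q₂ e ≤ Q₃ e) : Out s N T f θ X n Q₃ := by
  refine out_of (Q₁ := fun _ => 1) hT (fun e => ⟨by rw [dm_scl]; linarith,
    (yy_scl hT i e).trans ?_⟩) h (fun _ => zero_le_one) h2 (fun e => by linarith [h3 e]) le_rfl
    fun j D Y _ hc => cert_mono hT.pd (cert_scl hT (Real.exp_pos _).le hc) ?_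
      fun _ _ => ⟨le_rfl, le_rfl⟩
  · split_ifs with k
    · rw [k]; linarith
    · linarith [dm_nonneg T e]
  · have h4 := Real.exp_le_exp.2 (show 1 + Q₂ (j + 1) ≤ Q₃ (j + 1) by
      linarith [h3 (j + 1), h2 (j + 1)])
    rw [Real.exp_add] at h4
    nlinarith [Real.add_one_le_exp (1 : ℝ), Real.exp_pos (Q₂ (j + 1))]

theorem out_cases (h : Out s N T f θ X n Q₂) : Out s N T f θ X (n + 1) Q₂ ∨
    Cert T N (n + 1) (Real.exp (Q₂ (n + 2))) (fun e => T.dm e + Q₂ (e + 1))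
      fun e => T.yy N e + (T.dm e + 1) * Q₂ (e + 1) := by
  rcases h with h | ⟨j, g1, g2, g3⟩
  · exact Or.inl (Or.inl h)
  · rcases g1.eq_or_lt with rfl | g4
    exacts [Or.inr g3, Or.inl (Or.inr ⟨j, g4, g2, g3⟩)]

theorem cx_up {P P' : ℕ → ℝ} {j : ℕ} (hC : T.Cx N P) (hU : Up j T' T) (hG : T.Grow N T' Q₁)
    (h0 : ∀ e, 0 ≤ Q₁ e) (h1 : ∀ e, P e ≤ P' e)
    (h2 : ∀ e, e < j → P e + (P e + 1) * Q₁ (e + 1) ≤ P' e) : T'.Cx N P' := fun e => by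
  by_cases he : e < j
  · have h3 := dm_nonneg T e
    have h4 := mul_le_mul_of_nonneg_right (hC e).1 (h0 (e + 1))
    have h5 := mul_nonneg h3 (h0 (e + 1))
    constructor <;> linarith [(hG e).1, (hG e).2, (hC e).1, (hC e).2, h2 e he]
  · rw [up_dm hU (not_lt.1 he), up_yy hU N (not_lt.1 he)]
    exact ⟨(hC e).1.trans (h1 e), (hC e).2.trans (h1 e)⟩

theorem dn_zero (hT : TEST s) (ε : ℝ) : ∃ c, DN s ε 0 c := by
  obtain ⟨k, hT⟩ := hT
  set g := 2 * k + 2 with hg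
  refine ⟨g ^ s * (k + 1) + k + 3, fun N P T p f θ hL h1 h2 hf _ _ hp _ hG hF => ?_⟩
  set c := g ^ s * (k + 1) + k + 3 with hc
  have p3 : ∀ e, (3 : ℝ) ≤ P e := fun e =>
    le_trans (by exact_mod_cast (show 3 ≤ c by omega)) (hL.big e)
  have p1 : ∀ e, (1 : ℝ) ≤ P e := fun e => by linarith [p3 e]
  have p0 : ∀ e, (0 : ℝ) ≤ P e := fun e => by linarith [p3 e]
  have b1 : ∀ j, 1 ≤ g ^ (s - j) := fun j => Nat.one_le_pow _ _ (by omega)
  have b2 : ∀ j, g ^ (s - j) * (k + 1) ≤ c := fun j =>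
    (Nat.mul_le_mul_right _ (Nat.pow_le_pow_right (by omega) (Nat.sub_le s j))).trans (by omega)
  have b3 : ∀ j, g ^ (s - j) ≤ c := fun j => (Nat.le_mul_of_pos_right _ k.succ_pos).trans (b2 j)
  have key : ∀ j, j ≤ s → T.LFd j (P (j + 1) ^ g ^ (s - j)) (P (j + 1) ^ g ^ (s - j)) ∨
      Out s N T f ((1 - ε) ^ (2 * 0) * θ) (P (s + 1)) 0 fun e => P e ^ c := by
    intro j hj
    induction j with
    | zero => exact Or.inl (lfd_zero h1 _ _)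
    | succ j ih =>
      refine (ih (by omega)).elim (fun h => ?_) Or.inr
      set b := g ^ (s - (j + 1)) with hb
      set A := P (j + 1 + 1) ^ b with hA
      have a1 : P (j + 1 + 1) ≤ A := le_self_pow₀ (p1 _) (by have := b1 (j + 1); omega)
      have a2 : (A + A + P (j + 1)) ^ k ≤ P (j + 1) ^ g ^ (s - j) := by
        have a3 : A ≤ P (j + 1) ^ b := pow_le_pow_left₀ (p0 _) (hL.anti _) _
        have a4 : P (j + 1) ≤ P (j + 1) ^ b := le_self_pow₀ (p1 _) (by have := b1 (j + 1); omega)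
        calc _ ≤ (P (j + 1) ^ (b + 1)) ^ k := pow_le_pow_left₀ (by linarith [p0 (j + 1), p0 (j + 2)])
              (by rw [pow_succ]; nlinarith [p3 (j + 1)]) _
          _ ≤ _ := by
            rw [← pow_mul, show s - j = s - (j + 1) + 1 by omega, pow_succ]
            exact pow_le_pow_right₀ (p1 _) (by have := b1 (j + 1); nlinarith)
      refine (hT N P T (j + 1) A A (lad_mono hL (by exact_mod_cast (show k ≤ c by omega))) h1 h2
        (by omega) hj ((lad_le hL (by omega)).trans a1) ((p1 _).trans a1)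
        (by linarith [Real.log_le_sub_one_of_pos (show 0 < A by linarith [p1 (j + 2)])])
        (lfd_mono h1 h le_rfl a2 a2)).imp_right fun hc' => Or.inr ⟨j + 1, by omega, hj,
          cert_mono h1.pd hc' (Real.exp_le_exp.2 ?_) fun e he => ?_⟩
      · rw [hA, ← pow_mul]
        exact pow_le_pow_right₀ (p1 _) (le_trans (by nlinarith) (b2 (j + 1)))
      · have a5 : (A + A + P (j + 1)) ^ k ≤ P (e + 1) ^ c := a2.trans ((pow_le_pow_left₀ (p0 _)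
          (lad_le hL (by omega)) _).trans (pow_le_pow_right₀ (p1 _) (b3 j)))
        have a6 := pow_nonneg (p0 (e + 1)) c
        constructor <;> nlinarith [dm_nonneg T e]
  refine (key s le_rfl).elim (fun h => Or.inl ⟨T, h1, fun e => ?_, ?_, ?_⟩) id
  · have a6 := pow_nonneg (p0 (e + 1)) c
    constructor <;> nlinarith [dm_nonneg T e]
  · simpa using gs_root h1 hf hp hG
  · simpa using h

end

end Vale.Agent.P057DW
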