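import Vale.Agent.P057DW.Out

/-!
One round of the descent on a signed state.
-/

set_option linter.all false

open Matrix Finset
open Vale.Agent.P267.H775 Vale.Agent.P057G Vale.Agent.P057PC Vale.Agent.P057TP Vale.Agent.P057RG

namespace Vale.Agent.P057DW

noncomputable section

/-- the hypotheses on a signed state -/
structure Hy (s : ℕ) (N : ℝ) (P : ℕ → ℝ) (T : Tow) {n : ℕ} {W : Type} [Fintype W] [DecidableEq W]
    (cl : W → Fin n) (Z : Sys T W Unit) (f : ℤ → ℝ) (θ B κ σ : ℝ) : Prop where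
  ok : T.Ok s N
  cx : T.Cx N P
  zok : Z.Ok
  f01 : Unit01 f
  lo : Real.exp (-P (s + 1)) ≤ θ
  hi : θ ≤ 4
  ne : (cells cl).Nonempty
  card : (Fintype.card W + Fintype.card Unit : ℝ) ≤ P (n + 2)
  bd : B ≤ Real.exp (P (n + 2))
  ka : Real.exp (-P (n + 2)) ≤ κ
  si : Real.exp (-P 0) ≤ σ
  sp : Z.SP cl (n + 2) f θ B κ σ

/-- one round with the constant `c` -/
def RD (s : ℕ) (ε : ℝ) (n c : ℕ) : Prop :=
  ∀ (N : ℝ) (P : ℕ → ℝ) (T : Tow) (W : Type) [Fintype W] [DecidableEq W] (cl : W → Fin n)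
    (Z : Sys T W Unit) (f : ℤ → ℝ) (θ B κ σ : ℝ), Lad s N c P → Hy s N P T cl Z f θ B κ σ →
    Out s N T f ((1 - ε) ^ (2 * n) * ((1 - ε) * θ)) (P (s + 1)) (n + 1) (fun e => P e ^ c) ∨
    ∃ (T' : Tow) (Z' : Sys T' W Unit) (κ' σ' : ℝ), T'.Ok s N ∧ Z'.Ok ∧ Up (n + 2) T' T ∧
      (1 - 1 / P 0) * κ ≤ κ' ∧ σ * Real.exp (-P 1 ^ c) ≤ σ' ∧ Z'.SP cl (n + 2) f θ B κ' σ' ∧
      T.Grow N T' (fun e => P e ^ c) ∧ T'.dm (n + 1) + 1 ≤ T.dm (n + 1) ∧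
      T'.yy N (n + 1) ≤ T.yy N (n + 1) + (T.dm (n + 1) - T'.dm (n + 1)) * P (n + 2) ^ c

theorem exp_half {x y a κ : ℝ} (h : x + 1 ≤ y) (hκ : Real.exp (-x) ≤ κ) (ha : 1 / 2 ≤ a) :
    Real.exp (-y) ≤ a * κ := by
  have h1 := Real.exp_le_exp.2 (show -y + 1 ≤ -x by linarith)
  rw [Real.exp_add] at h1
  nlinarith [Real.add_one_le_exp (1 : ℝ), Real.exp_pos (-y), Real.exp_pos (-x)]

theorem exp_lose {x y z σ : ℝ} (h : x + y ≤ z) (hσ : Real.exp (-x) ≤ σ) :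
    Real.exp (-z) ≤ σ * Real.exp (-y) :=
  (Real.exp_le_exp.2 (show -z ≤ -x + -y by linarith)).trans
    (Real.exp_add _ _ ▸ mul_le_mul_of_nonneg_right hσ (Real.exp_pos _).le)

/-- three raised ladders -/
structure Nu (s : ℕ) (N : ℝ) (k c : ℕ) (P P₀ P₁ P₂ y : ℕ → ℝ) : Prop where
  l0 : Lad s N k P₀
  l1 : Lad s N k P₁
  l2 : Lad s N k P₂
  p3 : ∀ e, 3 ≤ P e
  q1 : ∀ e, P e + 1 ≤ P₀ e
  q2 : ∀ e, 2 * P₀ e ≤ P₁ e
  q3 : ∀ e a, a ≤ k → P₀ e ^ a ≤ P₁ e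
  q4 : ∀ e a, a ≤ k → 1 + 2 * P₁ e ^ a ≤ P₂ e
  q5 : ∀ e, P₀ e + (P₀ e + 1) * P₀ e ≤ P₂ e
  y1 : ∀ e a, a ≤ k → P₂ e ^ a ≤ y e
  y2 : ∀ e, P₂ e ≤ y e
  y3 : ∀ e, y e + (1 + y e) * (y e + (1 + y e) * y e) ≤ P e ^ c
  z1 : ∀ e, e ≤ s → P e + (P e + 1) * y (e + 1) ≤ P₀ e

theorem exists_nu (s k : ℕ) (k5 : 3 ≤ k) : ∃ c : ℕ, ∀ (N : ℝ) (P : ℕ → ℝ), Lad s N c P →
    ∃ P₀ P₁ P₂ y, Nu s N k c P P₀ P₁ P₂ y := by
  obtain ⟨c, -, hc⟩ := exists_room s (k * k)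
  refine ⟨c, fun N P hL => ?_⟩
  obtain ⟨P₁, P₂, r⟩ := hc N P hL
  have kk : k ≤ k * k := by nlinarith
  have kk' : (k : ℝ) ≤ (k * k : ℕ) := by exact_mod_cast kk
  have p3 := r.big
  have q1 : ∀ e, P e + 1 ≤ P₁ e := fun e => le_trans (by nlinarith [p3 e, sq_nonneg (P e)]) (r.cub e)
  have q2 : ∀ e, 1 ≤ P₁ e := fun e => by linarith [q1 e, p3 e]
  have q3 : ∀ e, 3 ≤ P₁ e := fun e => by linarith [q1 e, p3 e]
  have q4 : ∀ e a, a ≤ 2 * (k * k) + 2 → P₁ e ^ a ≤ P₂ e := fun e a ha => by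
    rw [r.two]; exact pow_le_pow_right₀ (q2 e) ha
  have q5 : ∀ e, P₁ e ^ 3 ≤ P₂ e := fun e => q4 e 3 (by omega)
  have q9 : ∀ e, 27 ≤ P₂ e := fun e => le_trans (by nlinarith [q3 e, sq_nonneg (P₁ e)]) (q5 e)
  have y1 : ∀ e a, a ≤ k → P₂ e ^ a ≤ P₂ e ^ k := fun e a ha =>
    pow_le_pow_right₀ (by linarith [q9 e]) ha
  have y2 : ∀ e, P₂ e ≤ P₂ e ^ k := fun e => by simpa using y1 e 1 (by omega)
  have y3 : ∀ e, 27 ≤ P₂ e ^ k := fun e => (q9 e).trans (y2 e)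
  have y4 : ∀ e, (P₂ e ^ k) ^ 4 ≤ (P₂ e ^ (k * k)) ^ 2 := fun e => by
    rw [← pow_mul, ← pow_mul]
    exact pow_le_pow_right₀ (by linarith [q9 e]) (by nlinarith)
  have l1 : ∀ e a, a ≤ k → P₁ e ^ a ≤ P₁ e ^ k := fun e a ha => pow_le_pow_right₀ (q2 e) ha
  refine ⟨P₁, fun e => P₁ e ^ k, P₂, fun e => P₂ e ^ k, lad_mono r.l1 kk',
    lad_mono (lad_pow r.l1 (by exact_mod_cast (show 1 ≤ k * k by omega)) (a := fun _ => k)
      (fun _ => le_rfl) (fun _ => by omega) kk') kk', lad_mono r.l2 kk', p3, q1,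
    fun e => le_trans (by nlinarith [q3 e]) (l1 e 2 (by omega)), l1, fun e a ha => ?_,
    fun e => le_trans (by nlinarith [q3 e, sq_nonneg (P₁ e)]) (q5 e), y1, y2, fun e => ?_,
    fun e he => ?_⟩
  · have h1 : (P₁ e ^ k) ^ a * P₁ e ^ 2 ≤ P₂ e := by
      rw [← pow_mul, ← pow_add]; exact q4 _ _ (by nlinarith)
    have h2 : 1 ≤ (P₁ e ^ k) ^ a := one_le_pow₀ (one_le_pow₀ (q2 e))
    have h3 : 9 ≤ P₁ e ^ 2 := by nlinarith [q3 e]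
    nlinarith
  · refine le_trans ?_ (((y4 e).trans (le_mul_of_one_le_left (sq_nonneg _)
      (one_le_pow₀ (by linarith [p3 e])))).trans (r.fin e))
    have := y3 e
    generalize P₂ e ^ k = x at *
    nlinarith [pow_pos (show 0 < x by linarith) 3, sq_nonneg x]
  · have h0 := (mul_le_mul_of_nonneg_left (y4 _) (pow_nonneg (by linarith [p3 e]) 9)).trans
      (r.stp e he)
    have h5 := y3 (e + 1)
    generalize P₂ (e + 1) ^ k = x at *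
    have h1 : x ≤ x ^ 4 := le_self_pow₀ (by linarith) (by omega)
    have h2 : P e ^ 2 ≤ P e ^ 9 := pow_le_pow_right₀ (by linarith [p3 e]) (by omega)
    have h3 := mul_le_mul h2 h1 (by linarith) (pow_nonneg (by linarith [p3 e]) _)
    have h4 : 3 * P e * x ≤ P e ^ 2 * x :=
      mul_le_mul_of_nonneg_right (by nlinarith [p3 e]) (by linarith)
    nlinarith [p3 e]

theorem num1 {x a b q : ℝ} (hx : 2 ≤ x) (ha : a ≤ x) (hb : b ≤ x) (ha0 : 0 ≤ a) (hb0 : 0 ≤ b)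
    (h : x + (1 + x) * (x + (1 + x) * x) ≤ q) : a + (1 + a) * b ≤ x + (1 + x) * x ∧
      x + (1 + x) * x ≤ q ∧ 2 * x ≤ q ∧ x + 1 ≤ q := by
  have h0 : 0 ≤ x := by linarith
  have h1 := mul_nonneg h0 h0
  have h2 := mul_nonneg h0 h1
  refine ⟨by nlinarith [mul_le_mul ha hb hb0 h0], ?_, ?_, ?_⟩ <;> nlinarith

theorem num2 {a b κ : ℝ} (hκ : 0 ≤ κ) (ha : 0 < a) (h : 2 * a ≤ b) :
    (1 - 1 / a) * κ ≤ (1 - 1 / b) * ((1 - 1 / b) * κ) := by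
  have h1 : 2 * (1 / b) ≤ 1 / a := by
    rw [mul_one_div, div_le_div_iff₀ (by linarith) ha]; linarith
  rw [← mul_assoc]
  exact mul_le_mul_of_nonneg_right (by nlinarith [sq_nonneg (1 / b)]) hκ

theorem num3 {y y₂ y₃ d d₂ d₃ a b q : ℝ} (h1 : d₂ ≤ d) (h2 : y₂ ≤ y + (d - d₂) * a)
    (h3 : d₃ + 1 ≤ d₂) (h4 : y₃ ≤ y₂ + b + 1) (h5 : a ≤ q) (h6 : b + 1 ≤ q) (h7 : 0 ≤ q) :
    y₃ ≤ y + (d - d₃) * q := by
  nlinarith [mul_le_mul_of_nonneg_left h5 (sub_nonneg.2 h1)]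

theorem exists_rd {s n : ℕ} {ε : ℝ} (hR : REG s) (hC : CD s) (hE : EVENT s) (ε0 : 0 < ε)
    (ε1 : ε ≤ 1 / 10) (hn : n + 1 ≤ s) (hD : ∃ c, DN s ε n c) : ∃ c, RD s ε n c := by
  obtain ⟨cR, hR⟩ := hR
  obtain ⟨cC, hC⟩ := hC ε ε0 ε1
  obtain ⟨cE, hE⟩ := hE
  obtain ⟨cD, hD⟩ := hD
  obtain ⟨k, k1, k2, k3, k4, k5⟩ : ∃ k, cR ≤ k ∧ cC ≤ k ∧ cE ≤ k ∧ cD ≤ k ∧ 3 ≤ k :=
    ⟨cR + cC + cE + cD + 3, by omega, by omega, by omega, by omega, by omega⟩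
  obtain ⟨c, hc⟩ := exists_nu s k k5
  refine ⟨c, fun N P T W _ _ cl Z f θ B κ σ hL h => ?_⟩
  obtain ⟨P₀, P₁, P₂, y, r⟩ := hc N P hL
  clear hc
  have lad : ∀ {Q : ℕ → ℝ} {a : ℕ}, Lad s N k Q → a ≤ k → Lad s N a Q :=
    fun h ha => lad_mono h (by exact_mod_cast ha)
  have q0 : ∀ e, P e ≤ P₀ e := fun e => (le_add_of_nonneg_right zero_le_one).trans (r.q1 e)
  have q2 : ∀ e, 3 ≤ P₀ e := fun e => (r.p3 e).trans (q0 e)
  have q3 : ∀ e, P₀ e ≤ P₁ e := fun e => by linarith only [r.q2 e, q2 e]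
  have q4 : ∀ e, 1 + 2 * P₁ e ≤ P₂ e := fun e => by simpa using r.q4 e 1 (by omega)
  have q7 : ∀ e, P₀ e ≤ P₂ e := fun e => by linarith only [q4 e, q3 e, q2 e]
  have q8 : ∀ e, P e ≤ P₂ e := fun e => (q0 e).trans (q7 e)
  have q9 : ∀ e, 0 ≤ P₂ e := fun e => by linarith only [q7 e, q2 e]
  have y3 : ∀ e, 2 ≤ y e := fun e => by linarith only [r.y2 e, q7 e, q2 e]
  have y0 : ∀ e, 0 ≤ y e := fun e => by linarith only [y3 e]
  have y4 := fun e => (num1 (y3 e) le_rfl (r.y2 e) (y0 e) (q9 e) (r.y3 e))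
  have z2 : ∀ e, e ≤ s → y (e + 1) ≤ P₀ e := fun e he => by
    nlinarith only [r.z1 e he, y3 (e + 1), r.p3 e]
  have ex : ∀ {a b : ℝ}, a ≤ b → Real.exp (-b) ≤ Real.exp (-a) := fun h =>
    Real.exp_le_exp.2 (neg_le_neg h)
  have i1 : 1 / P₂ 0 ≤ 1 / 2 := one_div_le_one_div_of_le two_pos (by linarith only [q7 0, q2 0])
  obtain ⟨u, u1, u2, u3⟩ := h.sp
  obtain ⟨T₂, Z₂, Ψ, a1, a2, a3, a4, a5, a6, a7, a8, a9, a10⟩ := hR N P₂ T (Fin n) W Unit cl (n + 2)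
    (n + 1) Z _ B κ σ (lad r.l2 k1) h.ok (cx_mono h.cx q8) h.zok (by omega) hn
    (h.card.trans (q8 _)) (h.bd.trans (Real.exp_le_exp.2 (q8 _))) ((ex (q8 _)).trans h.ka)
    ((ex (q8 _)).trans h.si) u3
  have s2 := sp_sub a4 u1 u2 a5
  have g2 : T.Grow N T₂ y := grow_mono a6 fun e => r.y1 e _ k1
  have c2 : T₂.Cx N P₀ := cx_up h.cx a3 g2 y0 q0 fun e he => r.z1 e (by omega)
  have κ2 : Real.exp (-P₀ (n + 2)) ≤ (1 - 1 / P₂ 0) * κ :=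
    exp_half (r.q1 _) h.ka (by linarith only [i1])
  have σ2 : Real.exp (-P₂ 0) ≤ σ * Real.exp (-P₂ 1 ^ cR) :=
    exp_lose (by linarith only [r.y1 1 _ k1, z2 0 (by omega), q0 0, q3 0, q4 0]) h.si
  obtain ⟨p, b1, b2, b3⟩ := hC N P₀ T₂ n W cl Z₂ f θ B _ _ (lad r.l0 k2) a1 c2 a2 hn h.f01
    ((ex (q0 _)).trans h.lo) h.hi h.ne
    (((le_add_of_nonneg_right (Nat.cast_nonneg _)).trans h.card).trans (q0 _))
    (h.bd.trans (Real.exp_le_exp.2 (q0 _))) κ2 ((Real.exp_pos _).trans_le σ2)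
    s2 (lfd_mono a1 a9 le_rfl (by linarith only [r.q3 (n + 1) _ k2, q4 (n + 1), q3 (n + 1), q2 (n + 1)])
      (by linarith only [r.q3 (n + 2) _ k2, q4 (n + 2), q3 (n + 2), q2 (n + 2)]))
  have l4 : ∀ e, 0 ≤ P₁ e ^ cD := fun e => pow_nonneg (by linarith only [q3 e, q2 e]) _
  have l6 : P₁ (n + 1) ^ cD ≤ P₂ (n + 1) := by linarith only [r.q4 (n + 1) _ k4, l4 (n + 1)]
  have θ0 : 0 < θ := (Real.exp_pos _).trans_le h.lo
  have o1 := out_scl a1 (hD N P₁ (T₂.scl (n + 1)) p f _ (lad r.l1 k4) (ok_scl a1 _)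
    (fun e => ⟨(c2 e).1.trans (q3 e), (yy_scl a1 _ e).trans (by
      split_ifs with he
      · rw [← he]; linarith only [(c2 e).1, (c2 e).2, r.q2 e]
      · linarith only [(c2 e).2, q3 e])⟩) h.f01
    (exp_half ((r.q1 _).trans (q3 _)) h.lo (by linarith only [ε1]))
    (by nlinarith only [h.hi, θ0, ε0]) b1 (b2.trans (r.q3 _ _ k2)) b3
    (lfd_scl (lfd_mono a1 a10 le_rfl l6 l6) (by omega))) l4 fun e => r.q4 e _ k4
  refine (out_cases o1).imp (fun o => out_up h.ok a1 a3 g2 o y0 q9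
    (fun e => (y4 e).1.trans (y4 e).2.1) ((q0 _).trans (q3 _))) fun ce => ?_
  obtain ⟨v, v1, v2, v3⟩ := s2
  have an := r.l2.anti (n + 1)
  obtain ⟨T₃, Z₃, Ψ', d1, d2, d3, d4, d5, d6, d7, d8⟩ := hE N P₂ T₂ (Fin n) W Unit cl (n + 2)
    (n + 1) Z₂ _ B _ _ _ _ _ (lad r.l2 k3) a1 (cx_mono c2 q7) a2 (by omega) (by omega)
    (h.card.trans ((q8 _).trans an)) (h.bd.trans (Real.exp_le_exp.2 ((q8 _).trans an)))
    ((ex ((q7 _).trans an)).trans κ2) σ2 v3 (Real.one_le_exp (q9 _))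
    ((Real.log_exp _).trans_le an) ce
    fun e he => by
      have h1 := (r.y2 (e + 1)).trans (z2 e (by omega))
      have h2 : (T₂.dm e + 1) * P₂ (e + 1) ≤ (P₀ e + 1) * P₀ e := mul_le_mul
        (by linarith only [(c2 e).1]) h1 (q9 _) (by linarith only [q2 e])
      exact ⟨by linarith only [(c2 e).1, h1, q3 e, q4 e], by linarith only [(c2 e).2, h2, r.q5 e]⟩
  rw [Real.log_exp] at d8
  have q10 : ∀ e, 0 ≤ P e ^ c := fun e => by linarith only [(y4 e).2.2.2, y0 e]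
  have m1 := num3 (q := P (n + 2) ^ c) a7 a8 d7 d8
    (by linarith only [r.y1 (n + 2) _ k1, (y4 (n + 2)).2.2.2])
    (by linarith only [r.y2 (n + 2), (y4 (n + 2)).2.2.2]) (q10 _)
  have uu := up_trans d3 a3
  refine ⟨T₃, Z₃, _, _, d1, d2, uu, num2 ((Real.exp_pos _).le.trans h.ka)
    (by linarith only [r.p3 0]) (by linarith only [q0 0, q3 0, q4 0]), ?_, sp_sub d4 v1 v2 d5,
    fun e => ?_, d7.trans a7, m1⟩
  · rw [mul_assoc, ← Real.exp_add]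
    exact mul_le_mul_of_nonneg_left (Real.exp_le_exp.2 (by
      linarith only [r.y1 1 _ k1, r.y1 1 _ k3, (y4 1).2.2.1])) ((Real.exp_pos _).le.trans h.si)
  · rcases lt_trichotomy e (n + 1) with he | rfl | he
    · have h1 := grow_num (dm_nonneg T₂ e) le_rfl le_rfl (d6 e he).1 (d6 e he).2 (q9 _)
        (pow_nonneg (q9 _) _) (num1 (y3 _) (r.y2 _) (r.y1 _ _ k3) (q9 _) (pow_nonneg (q9 _) _)
          (r.y3 _)).1
      exact grow_num (dm_nonneg T e) (g2 e).1 (g2 e).2 h1.1 h1.2 (y0 _)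
        (by have := y0 (e + 1); positivity) (r.y3 _)
    · exact ⟨by linarith only [d7, a7, q10 (n + 1 + 1)],
        m1.trans (by nlinarith only [dm_nonneg T₃ (n + 1), q10 (n + 2)])⟩
    · rw [up_dm uu he, up_yy uu N he]
      exact ⟨le_add_of_nonneg_right (q10 _), le_add_of_nonneg_right
        (mul_nonneg (by linarith only [dm_nonneg T e]) (q10 _))⟩

end

end Vale.Agent.P057DW
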