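import Vale.Agent.P057RG.Up
import Vale.Agent.P057RG.Num
import Vale.Agent.P057TE.Thb

/-!
The tower with one level doubled; monotonicity of regularity and of certificates; signed states
under maps of systems; the root of a grid state without pure classes.
-/

set_option linter.all false

open Matrix Finset
open Vale.Agent.P267.H775 Vale.Agent.P057G Vale.Agent.P057PC Vale.Agent.P057TP Vale.Agent.P057RG

namespace Vale.Agent.P057DW

noncomputable section

variable {T : Tow} {s : ℕ} {N : ℝ}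

theorem cert_mono {j : ℕ} {H H' : ℝ} {D D' Y Y' : ℕ → ℝ} (hG : T.G.PosDef) (h : Cert T N j H D Y)
    (hH : H ≤ H') (hD : ∀ e, e < j → D e ≤ D' e ∧ Y e ≤ Y' e) : Cert T N j H' D' Y' := by
  obtain ⟨T', φ, k, I, h1, h2, h3, h4, h5, h6, h7⟩ := h
  exact ⟨T', φ, k, I, h1, h2, fun e he => ⟨(h3 e he).1.trans (hD e he).1,
    (h3 e he).2.trans (hD e he).2⟩, h4, h5, fun x => (h6 x).trans
      (mul_le_mul_of_nonneg_right hH (qq_nonneg hG.posSemidef x)), h7⟩

theorem qq_scl (h : T.Ok s N) (e : ℕ) (x : T.ι → ℝ) :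
    qq (T.scl e).G x = qq T.G x + qq (bk T.G fun a => T.lv a = e) (rs _ x) := by
  rw [← P057TE.qq_ez]
  simp only [qq, dotProduct, mulVec, Tow.scl, of_apply, ← sum_add_distrib]
  refine sum_congr rfl fun a _ => ?_
  by_cases ha : T.lv a = e
  · simp only [ha, if_true, P057TE.ez, rs, dif_pos, ← mul_add, ← sum_add_distrib]
    congr 1
    refine sum_congr rfl fun b _ => ?_
    by_cases hb : T.lv b = e
    · simp only [hb, dif_pos]; ring
    · simp only [h.blk a b (by omega)]; ring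
  · simp only [ha, if_false, P057TE.ez, dif_neg, not_false_eq_true, zero_mul, add_zero]
    rfl

theorem qq_scl_le (h : T.Ok s N) (e : ℕ) (x : T.ι → ℝ) :
    qq T.G x ≤ qq (T.scl e).G x ∧ qq (T.scl e).G x ≤ 2 * qq T.G x := by
  have h1 := qq_nonneg (posDef_bk h.pd fun a => T.lv a = e).posSemidef (rs _ x)
  have h2 := P057TE.qq_rs_le (P := fun a => T.lv a = e) h.pd (fun a b ha hb => h.blk a b (by omega)) x
  rw [qq_scl h]
  constructor <;> linarith

theorem ok_scl (h : T.Ok s N) (e : ℕ) : (T.scl e).Ok s N := by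
  have hb : ∀ a b, T.lv a ≠ T.lv b → (T.scl e).G a b = 0 := fun a b k => by
    simp [Tow.scl, h.blk a b k]
  refine ⟨h.pos, h.le, h.hom, h.low, PosDef.of_dotProduct_mulVec_pos ?_ fun x hx =>
    (h.pd.dotProduct_mulVec_pos hx).trans_le (qq_scl_le h e x).1, hb, h.el1,
    fun z h1 h2 => (h.sep z h1 h2).trans (qq_scl_le h e _).1, fun x => (h.elN x).trans
      (mul_le_mul_of_nonneg_left (qq_scl_le h e x).1 (sq_nonneg N))⟩
  ext a b
  by_cases k : T.lv a = T.lv b
  · have := h.pd.1.apply a b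
    simp only [star_trivial] at this
    change (if T.lv b = e then 2 * T.G b a else T.G b a) = if T.lv a = e then 2 * T.G a b else _
    rw [k, this]
  · rw [conjTranspose_apply, hb a b k, hb b a (Ne.symm k), star_zero]

theorem dm_scl (T : Tow) (e i : ℕ) : (T.scl e).dm i = T.dm i := rfl

theorem yy_scl (h : T.Ok s N) (e i : ℕ) :
    (T.scl e).yy N i ≤ T.yy N i + if i = e then T.dm e else 0 := by
  change Real.log (bk (L := T.ι) (T.scl e).G fun a => T.lv a = i).det / 2 + _ ≤ _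
  unfold Tow.yy
  by_cases k : i = e
  · subst k
    have h1 : (bk (L := T.ι) (T.scl i).G fun a => T.lv a = i) =
        (2 : ℝ) • bk T.G fun a => T.lv a = i := by
      ext a b
      exact if_pos a.2
    have h2 := (posDef_bk h.pd fun a => T.lv a = i).det_pos
    have h3 : Real.log 2 ≤ 1 := by linarith [Real.log_le_sub_one_of_pos (two_pos (α := ℝ))]
    have h4 := mul_le_mul_of_nonneg_left h3 (dm_nonneg T i)
    have h5 := dm_nonneg T i
    rw [h1, if_pos rfl, det_smul, Real.log_mul (by positivity) h2.ne', Real.log_pow,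
      P057TE.card_lv]
    linarith
  · have h1 : (bk (L := T.ι) (T.scl e).G fun a => T.lv a = i) = bk T.G fun a => T.lv a = i := by
      ext a b
      exact if_neg fun c => k (a.2.symm.trans c)
    rw [h1, if_neg k, add_zero]

theorem lfd_scl {d e : ℕ} {n A : ℝ} (h : T.LFd d n A) (hd : d < e) : (T.scl e).LFd d n A := by
  intro M V L _ _ _ _ C hC hV hl B hB hq
  have h1 : C.Gam (T.scl e).tw = C.Gam T.tw := by
    ext l l'
    have : T.lv (C.cd l) ≠ e := (lt_of_le_of_lt (hl l) hd).ne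
    simp only [Cf.Gam, Tow.tw, Tow.scl, of_apply, this, if_false]
  exact h M V L C ⟨hC.1, hC.2, hC.3, hC.4, hC.5, hC.6, hC.7, hC.8⟩ hV hl B hB (h1 ▸ hq)

theorem cert_scl (hT : T.Ok s N) {e j : ℕ} {H : ℝ} {D Y : ℕ → ℝ} (hH : 0 ≤ H)
    (h : Cert (T.scl e) N j H D Y) : Cert T N j (2 * H) D Y := by
  obtain ⟨T', φ, k, I, h1, h2, h3, h4, h5, h6, h7⟩ := h
  refine ⟨T', φ, k, I, h1, ⟨h2.hom, fun y hy i hi => ((qq_scl_le hT e _).1).trans
    (h2.ball y hy i hi), h2.el⟩, h3, h4, h5, fun x => (h6 x).trans ?_, h7⟩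
  nlinarith [mul_le_mul_of_nonneg_left (qq_scl_le hT e x).2 hH]

theorem cert_up (hT : T.Ok s N) {T' : Tow} {j : ℕ} {H : ℝ} {D Y : ℕ → ℝ} (hU : Up j T' T)
    (hH : 0 ≤ H) (h : Cert T' N j H D Y) : Cert T N j H D Y := by
  obtain ⟨φ, e, g1, g2, g3, g4, g5, g6⟩ := hU
  obtain ⟨T₀, ψ, k, I, h1, h2, h3, h4, ⟨w, h5⟩, h6, h7, h8⟩ := h
  have k0 : ∀ b, ¬j ≤ T'.lv b → (k b : ℝ) = 0 := fun b hb => by
    rw [h4 b (by omega), Int.cast_zero]
  refine ⟨T₀, _, fun a => if h : j ≤ T.lv a then k (e ⟨a, h⟩) else 0, I, h1, mor_comp g1 h2, h3,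
    fun a ha => ?_, ⟨fun a => if h : j ≤ T.lv a then w (e ⟨a, h⟩) else 0, ?_⟩, fun x => ?_, h7,
    fun y hy => le_of_eq_of_le ?_ (h8 y hy)⟩
  · beta_reduce
    split_ifs with h
    exacts [h4 _ (by rwa [g2]), rfl]
  · rw [← h5]
    refine Int.cast_injective (α := ℝ) ?_
    simp only [dotProduct, Int.cast_sum, Int.cast_mul]
    exact (sum_up e (fun a => by simp only [a.2, dif_pos]) (fun a ha => by simp [ha])
      fun b hb => by rw [k0 b hb, zero_mul]).symm
  · set x' : T'.ι → ℝ := fun b => if h : T'.lv b = j then x (e.symm ⟨b, h.ge⟩) else 0 with hx'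
    have e1 : ∀ a, x' (e a) = P057TE.ez (fun a => T.lv a = j) (rs _ x) a := fun a => by
      simp only [hx', P057TE.ez, rs, g2, Subtype.coe_eta, Equiv.symm_apply_apply]
    have e2 : ∀ b, ¬j ≤ T'.lv b → x' b = 0 := fun b hb => dif_neg (by omega)
    have e3 : ∀ a, ¬j ≤ T.lv a → P057TE.ez (fun a => T.lv a = j) (rs _ x) a = 0 := fun a ha =>
      dif_neg (by omega)
    have e4 : qq T'.G x' = qq (bk T.G fun a => T.lv a = j) (rs _ x) := by
      rw [← P057TE.qq_ez]
      simp only [qq, dotProduct, mulVec]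
      refine sum_up e (fun a => ?_) (fun a ha => by rw [e3 a ha, zero_mul])
        fun b hb => by rw [e2 b hb, zero_mul]
      rw [e1, sum_up e (f := fun b => T.G a b * _) (fun b => by rw [e1, g5])
        (fun a ha => by rw [e3 a ha, mul_zero]) fun b hb => by rw [e2 b hb, mul_zero]]
    refine le_of_eq_of_le (congrArg (· ^ 2) ?_) ((h6 x').trans (mul_le_mul_of_nonneg_left
      (e4 ▸ P057TE.qq_rs_le hT.pd (fun a b ha hb => hT.blk a b (by omega)) x) hH))
    refine (sum_up e (fun a => ?_) (fun a ha => by simp [ha])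
      fun b hb => by rw [e2 b hb, mul_zero]).symm
    simp only [e1, toR_apply, a.2, dif_pos, P057TE.ez, rs]
    split_ifs with h
    exacts [rfl, by rw [h4 _ (by rwa [g2]), Int.cast_zero, zero_mul, zero_mul]]
  · rw [ap_bind, sum_up e (f := fun a => ((if h : j ≤ T.lv a then k (e ⟨a, h⟩) else 0 : ℤ) : ℝ) *
      MvPolynomial.eval (ap φ (ap ψ y)) (T.q a)) (fun a => by simp only [a.2, dif_pos, g4])
      (fun a ha => by simp [ha]) fun b hb => by rw [k0 b hb, zero_mul]]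

variable {C W S : Type} [Fintype W] [DecidableEq W] [Fintype S] {cl : W → C} {m : ℕ}

theorem sp_sub {T' : Tow} {Z' : Sys T' W S} {Z : Sys T W S} {Ψ : Fam ℤ T.ι T'.ι W S} {R r : ℝ}
    (h : Sub cl m Z' Z Ψ R r) {u : (Lb T cl S m → ℤ) → ℝ}
    (h1 : ∀ z z', (∀ l, l.bs = none → z l = z' l) → u z = u z') (h2 : ∀ z, 0 ≤ u z ∧ u z ≤ 1)
    {f : ℤ → ℝ} {θ B κ σ : ℝ}
    (h3 : Z'.St cl m (fun z => u (Ψ.sub cl m z) * Z.Ex0 cl m f θ (Ψ.sub cl m z)) B κ σ) :
    Z'.SP cl m f θ B κ σ := by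
  refine ⟨fun z => u (Ψ.sub cl m z), fun z z' k => h1 _ _ fun l hl => ?_, fun z => h2 _, ?_⟩
  · unfold Fam.sub Fam.alt
    refine sum_congr rfl fun A _ => ?_
    rw [hl, funext fun a => P057GH.pt_congr (x := z) (x' := z') (o := none) (A := A) (a := a)
      fun l' _ _ e => k l' (e.elim id id)]
  · have : ∀ z, Z'.Ex0 cl m f θ z = Z.Ex0 cl m f θ (Ψ.sub cl m z) := fun z => by
      unfold Sys.Ex0 Sys.PF
      rw [prod_congr rfl fun c hc => prod_congr rfl fun t _ => h.cel f z c hc t]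
    simpa only [this] using h3

theorem cells_fst {n q : ℕ} (hq : 1 ≤ q) : (cells (Prod.fst : Fin n × Fin q → Fin n)).Nonempty := by
  refine ⟨univ.image fun i => (i, ⟨0, hq⟩), ?_⟩
  simp only [cells, mem_filter, mem_univ, true_and]
  refine ⟨fun a ha b hb e => ?_, fun i => ⟨_, mem_image_of_mem _ (mem_univ i), rfl⟩⟩
  obtain ⟨i, -, rfl⟩ := mem_image.1 ha
  obtain ⟨j, -, rfl⟩ := mem_image.1 hb
  exact Prod.ext e rfl

theorem blow_zero (hT : T.Ok s N) (Z : Sys T (Fin 0) Unit) (f : ℤ → ℝ) : ∃ x : ℝ, ∀ p : ℕ,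
    (Unit01 f → 1 ≤ p → 0 ≤ x) ∧
    ∑' z, (Z.blow p).w Prod.fst 1 z * (Z.blow p).PF Prod.fst 1 f z = x ^ p := by
  refine ⟨∑' y : {a // 1 ≤ T.lv a} → ℤ, ng (bk T.G fun a => 1 ≤ T.lv a)
      (fun a => (y a : ℝ) - MvPolynomial.eval (toR fun b => y ⟨b, hT.pos b⟩)
        (Z.fam.at' (some ()) ∅ a)) * f (Z.off univ () + T.el ⬝ᵥ fun b => y ⟨b, hT.pos b⟩),
    fun p => ⟨fun hf _ => tsum_nonneg fun y => mul_nonneg (ng_nonneg _ _) (hf _).1, ?_⟩⟩
  haveI : IsEmpty (Lb T (Prod.fst : Fin 0 × Fin p → Fin 0) (Fin p) 1) :=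
    ⟨fun l => by have := hT.pos l.1.1; have := l.2.1; omega⟩
  have hc : cells (Prod.fst : Fin 0 × Fin p → Fin 0) = {∅} := by
    ext c
    have : c = ∅ := Subsingleton.elim _ _
    subst this
    simp only [cells, mem_filter, mem_univ, true_and, mem_singleton, iff_true]
    exact ⟨by simp, fun i => i.elim0⟩
  rw [tsum_fintype, Fintype.sum_unique, Sys.w, Sys.PF, hc, prod_singleton]
  have h1 : ∀ x, ng (Gam T (Prod.fst : Fin 0 × Fin p → Fin 0) (Fin p) 1) x = 1 := fun x => by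
    simp [ng, gs, qq, vol]
  rw [h1, one_mul]
  refine (prod_congr rfl fun t _ => ?_).trans (Fin.prod_const p _)
  refine tsum_congr fun y => ?_
  have h2 : ∀ z, Sys.full (Prod.fst : Fin 0 × Fin p → Fin 0) 1 z ∅ t y =
      fun b => y ⟨b, hT.pos b⟩ := fun z => funext fun b => dif_pos (hT.pos b)
  simp only [h2, P057GH.at_blow Z p (some t) (A := ∅) (by simp), image_empty]
  rfl

theorem gs_root (hT : T.Ok s N) {f : ℤ → ℝ} (hf : Unit01 f) {p : ℕ} (hp : 1 ≤ p) {θ : ℝ}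
    (h : GS T 0 f p θ) : GS T 0 f 1 θ := by
  obtain ⟨Z, h1, h2⟩ := h
  obtain ⟨x, hx⟩ := blow_zero hT Z f
  refine ⟨Z, h1, ?_⟩
  simp only [zero_add, pow_one] at h2 ⊢
  rw [(hx p).2] at h2
  rw [(hx 1).2, pow_one]
  by_contra k
  exact absurd h2 (not_le.2 (pow_lt_pow_left₀ (not_le.1 k) ((hx p).1 hf hp) (by omega)))

end

end Vale.Agent.P057DW
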